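import Vale.Agent.P269.G1I.Ser

/-!
# [B1], [B2] formal power series from symmetric functions of lists
-/

namespace Vale.Agent.P269.G1.H598

open Finset.HasAntidiagonal (antidiagonal)
open Vale.Agent.P269.CI Vale.Agent.P269.G1

section gen

variable {n : ℕ} {K : Type*} [CommRing K] [Algebra ℚ K]

theorem count_lst (α : Fin n →₀ ℕ) (j : Fin n) : (lst α).count j = α j := by
  rw [lst, List.count_flatMap, ← Fin.sum_univ_def]
  simp [List.count_replicate]

theorem lst_zero : lst (0 : Fin n →₀ ℕ) = [] := by
  apply List.eq_nil_iff_forall_not_mem.2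
  intro a ha
  have := List.count_pos_iff.2 ha
  rw [count_lst] at this
  simp at this

theorem lst_add (α : Fin n →₀ ℕ) (i : Fin n) : (lst (α + Finsupp.single i 1)).Perm (i :: lst α) := by
  rw [List.perm_iff_count]
  intro j
  rw [count_lst, List.count_cons, count_lst, Finsupp.add_apply, Finsupp.single_apply]
  by_cases h : i = j
  · simp [h]
  · simp [h]

/-- the exponents of a list -/
noncomputable def cnt (L : List (Fin n)) : Fin n →₀ ℕ :=
  Finsupp.equivFunOnFinite.symm fun j => L.count j

theorem lst_cnt (L : List (Fin n)) : (lst (cnt L)).Perm L := by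
  rw [List.perm_iff_count]
  intro j
  rw [count_lst]
  rfl

theorem coeff_toSer (A : List (Fin n) → K) (α : Fin n →₀ ℕ) :
    MvPowerSeries.coeff α (toSer A) = ((∏ i, (α i).factorial : ℕ) : ℚ)⁻¹ • A (lst α) := rfl

/-- **[B1a]** -/
theorem pderiv_toSer (A : List (Fin n) → K) (hA : Sym A) (i : Fin n) :
    MvPowerSeries.pderiv K i (toSer A) = toSer (fun L => A (i :: L)) := by
  classical
  ext β
  rw [MvPowerSeries.coeff_pderiv, coeff_toSer, coeff_toSer, hA _ _ (lst_add β i)]
  have h1 : ((∏ j, ((β + Finsupp.single i 1 : Fin n →₀ ℕ) j).factorial : ℕ) : ℚ) =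
      ((β i : ℚ) + 1) * ((∏ j, (β j).factorial : ℕ) : ℚ) := by
    have h2 : ∏ j, ((β + Finsupp.single i 1 : Fin n →₀ ℕ) j).factorial =
        (β i + 1) * ∏ j, (β j).factorial := by
      rw [← Finset.mul_prod_erase Finset.univ _ (Finset.mem_univ i),
        ← Finset.mul_prod_erase Finset.univ (fun j => (β j).factorial) (Finset.mem_univ i),
        ← mul_assoc]
      congr 1
      · simp [Nat.factorial_succ]
      · refine Finset.prod_congr rfl fun j hj => ?_
        have hji : i ≠ j := fun h => (Finset.mem_erase.1 hj).1 h.symm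
        rw [Finsupp.add_apply, Finsupp.single_apply, if_neg hji, add_zero]
    rw [h2]
    push_cast
    ring
  have h3 : ((β i : K) + 1) = algebraMap ℚ K ((β i : ℚ) + 1) := by simp
  have h4 : (β i : ℚ) + 1 ≠ 0 := by positivity
  rw [h1, h3, mul_comm, ← Algebra.smul_def, smul_smul, mul_inv, ← mul_assoc,
    mul_inv_cancel₀ h4, one_mul]

theorem shf_congr (L : List (Fin n)) : ∀ {A B A' B' : List (Fin n) → K}, (∀ M, A M = A' M) →
    (∀ M, B M = B' M) → shf L A B = shf L A' B' := by
  intro A B A' B' h1 h2
  rw [funext h1, funext h2]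

theorem Sym.cons {A : List (Fin n) → K} (hA : Sym A) (i : Fin n) : Sym fun M => A (i :: M) :=
  fun _ _ h => hA _ _ (h.cons i)

theorem shf_perm {L M : List (Fin n)} (h : L.Perm M) : ∀ (A B : List (Fin n) → K), Sym A → Sym B →
    shf L A B = shf M A B := by
  induction h with
  | nil => intros; rfl
  | cons x _ ih =>
    intro A B hA hB
    rw [shf, shf, ih _ _ (Sym.cons hA x) hB, ih _ _ hA (Sym.cons hB x)]
  | swap x y l =>
    intro A B hA hB
    simp only [shf]
    have e1 : shf l (fun M => A (y :: x :: M)) B = shf l (fun M => A (x :: y :: M)) B :=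
      shf_congr l (fun M => hA _ _ (List.Perm.swap x y M)) fun _ => rfl
    have e2 : shf l A (fun M => B (y :: x :: M)) = shf l A (fun M => B (x :: y :: M)) :=
      shf_congr l (fun _ => rfl) fun M => hB _ _ (List.Perm.swap x y M)
    rw [e1, e2]
    ring
  | trans _ _ ih1 ih2 =>
    intro A B hA hB
    rw [ih1 A B hA hB, ih2 A B hA hB]

theorem sym_shf {A B : List (Fin n) → K} (hA : Sym A) (hB : Sym B) : Sym fun L => shf L A B :=
  fun _ _ h => shf_perm h A B hA hB

theorem toSer_add' (A B : List (Fin n) → K) :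
    toSer (fun L => A L + B L) = toSer A + toSer B := toSer_add A B

theorem constantCoeff_toSer (A : List (Fin n) → K) :
    MvPowerSeries.constantCoeff (toSer A) = A [] := by
  rw [← MvPowerSeries.coeff_zero_eq_constantCoeff_apply, coeff_toSer, lst_zero]
  simp

/-- **[B1b]** -/
theorem toSer_mul (A B : List (Fin n) → K) (hA : Sym A) (hB : Sym B) :
    toSer A * toSer B = toSer (fun L => shf L A B) := by
  classical
  have key : ∀ (D : ℕ) (A B : List (Fin n) → K), Sym A → Sym B → ∀ α : Fin n →₀ ℕ, α.degree = D →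
      MvPowerSeries.coeff α (toSer A * toSer B) =
        MvPowerSeries.coeff α (toSer fun L => shf L A B) := by
    intro D
    induction D with
    | zero =>
      intro A B hA hB α hα
      have hα0 : α = 0 := (Finsupp.degree_eq_zero_iff α).1 hα
      subst hα0
      rw [MvPowerSeries.coeff_zero_eq_constantCoeff_apply, map_mul,
        MvPowerSeries.coeff_zero_eq_constantCoeff_apply, constantCoeff_toSer, constantCoeff_toSer,
        constantCoeff_toSer]
      rfl
    | succ D ih =>
      intro A B hA hB α hα
      have hα0 : α ≠ 0 := by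
        intro h
        rw [h] at hα
        simp at hα
      obtain ⟨i, hi⟩ : ∃ i, α i ≠ 0 := by
        by_contra hne
        push Not at hne
        exact hα0 (Finsupp.ext hne)
      obtain ⟨β, hβ⟩ : ∃ β : Fin n →₀ ℕ, α = β + Finsupp.single i 1 := by
        refine ⟨α - Finsupp.single i 1, (tsub_add_cancel_of_le ?_).symm⟩
        rw [Finsupp.single_le_iff]
        omega
      subst hβ
      have hβd : β.degree = D := by
        have : (β + Finsupp.single i 1).degree = β.degree + 1 := by simp [map_add]
        omega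
      have e1 : MvPowerSeries.coeff (β + Finsupp.single i 1) (toSer A * toSer B) *
          ((β i : K) + 1) = MvPowerSeries.coeff (β + Finsupp.single i 1)
            (toSer fun L => shf L A B) * ((β i : K) + 1) := by
        rw [← MvPowerSeries.coeff_pderiv, ← MvPowerSeries.coeff_pderiv, Derivation.leibniz,
          pderiv_toSer A hA, pderiv_toSer B hB, pderiv_toSer _ (sym_shf hA hB), map_add,
          smul_eq_mul, smul_eq_mul, ih _ _ hA (Sym.cons hB i) β hβd,
          mul_comm (toSer B), ih _ _ (Sym.cons hA i) hB β hβd, ← map_add, ← toSer_add']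
        congr 1
        congr 1
        funext L
        rw [shf, add_comm]
      have h3 : ((β i : K) + 1) = algebraMap ℚ K ((β i : ℚ) + 1) := by simp
      have h4 : (β i : ℚ) + 1 ≠ 0 := by positivity
      have h5 : ((β i : K) + 1) * algebraMap ℚ K (((β i : ℚ) + 1)⁻¹) = 1 := by
        rw [h3, ← map_mul, mul_inv_cancel₀ h4, map_one]
      have e2 := congrArg (fun z => z * algebraMap ℚ K (((β i : ℚ) + 1)⁻¹)) e1
      simp only [mul_assoc, h5, mul_one] at e2
      exact e2
  ext α
  exact key _ A B hA hB α rfl

/-- **[B1c]** -/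
theorem toSer_inj (A B : List (Fin n) → K) (hA : Sym A) (hB : Sym B) (h : toSer A = toSer B) :
    A = B := by
  funext L
  rw [← hA _ _ (lst_cnt L), ← hB _ _ (lst_cnt L)]
  have e := congrArg (MvPowerSeries.coeff (cnt L)) h
  rw [coeff_toSer, coeff_toSer] at e
  set m : ℕ := ∏ i, ((cnt L) i).factorial with hm
  have hm0 : (m : ℚ) ≠ 0 := by
    have : m ≠ 0 := Finset.prod_ne_zero_iff.2 fun i _ => Nat.factorial_ne_zero _
    exact_mod_cast this
  have e2 := congrArg (fun z => (m : ℚ) • z) e
  simpa [smul_smul, mul_inv_cancel₀ hm0] using e2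

end gen

section ser

variable {X : CompleteIntersection}

theorem sgnL_hpow (a : Bool) (L : List (Fin (X.dim + 1))) : sgnL X a (L.map (hpow X)) = 1 := by
  rw [sgnL, List.map_map]
  apply List.prod_eq_one
  intro z hz
  obtain ⟨j, _, rfl⟩ := List.mem_map.1 hz
  simp [sgn, par, hpow]

theorem shuffle_hpow (L : List (Fin (X.dim + 1))) : ∀ (A B : List (Ins X) → ℂ),
    shuffle X (L.map (hpow X)) A B =
      shf L (fun M => A (M.map (hpow X))) (fun M => B (M.map (hpow X))) := by
  induction L with
  | nil => intro A B; rfl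
  | cons i L ih =>
    intro A B
    rw [List.map_cons, shuffle, shf, ih, ih]
    congr 1
    apply shf_congr
    · intro M
      have : sgnL X (par X (hpow X i).1) (M.map (hpow X)) = 1 := sgnL_hpow _ _
      rw [this, one_mul]
    · intro M
      rfl

theorem shf_mk (L : List (Fin (X.dim + 1))) : ∀ (A B : ℕ → List (Fin (X.dim + 1)) → ℂ),
    shf L (fun M => PowerSeries.mk fun d => A d M) (fun M => PowerSeries.mk fun d => B d M) =
      PowerSeries.mk fun d => ∑ e ∈ antidiagonal d, shf L (A e.1) (B e.2) := by
  induction L with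
  | nil =>
    intro A B
    ext d
    rw [shf, PowerSeries.coeff_mul]
    simp [shf]
  | cons i L ih =>
    intro A B
    rw [shf, ih (fun d M => A d (i :: M)) B, ih A (fun d M => B d (i :: M))]
    ext d
    simp [shf, Finset.sum_add_distrib]

theorem sym_of_symS {A : ℕ → List (Ins X) → ℂ} (hA : SymS A) :
    Sym fun L : List (Fin (X.dim + 1)) => PowerSeries.mk fun d => A d (L.map (hpow X)) := by
  intro L M h
  ext d
  simpa using hA d L M h

/-- **[B2]** -/
theorem ser_mulS (A B : ℕ → List (Ins X) → ℂ) (hA : SymS A) (hB : SymS B) :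
    ser (mulS A B) = ser A * ser B := by
  rw [ser, ser, ser, toSer_mul _ _ (sym_of_symS hA) (sym_of_symS hB)]
  congr 1
  funext L
  rw [shf_mk L (fun d M => A d (M.map (hpow X))) (fun d M => B d (M.map (hpow X)))]
  ext d
  simp only [PowerSeries.coeff_mk, mulS]
  exact Finset.sum_congr rfl fun e _ => shuffle_hpow L _ _

/-- **[B2']** -/
theorem ser_inj (A B : ℕ → List (Ins X) → ℂ) (hA : SymS A) (hB : SymS B) (h : ser A = ser B)
    (d : ℕ) (L : List (Fin (X.dim + 1))) : A d (L.map (hpow X)) = B d (L.map (hpow X)) := by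
  have e := toSer_inj _ _ (sym_of_symS hA) (sym_of_symS hB) h
  have e1 := congrFun e L
  simpa using congrArg (PowerSeries.coeff d) e1

/-- **[B2'']** -/
theorem pderiv_ser (A : ℕ → List (Ins X) → ℂ) (hA : SymS A) (i : Fin (X.dim + 1)) :
    MvPowerSeries.pderiv (PowerSeries ℂ) i (ser A) = ser (fun d L => A d (hpow X i :: L)) := by
  rw [ser, pderiv_toSer _ (sym_of_symS hA)]
  rfl

end ser

end Vale.Agent.P269.G1.H598
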