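import Vale.Agent.P269.G1I.Poly
import Vale.Agent.P269.G1I.H598.Skew

/-!
# [P1] the polynomial relation for the genus-one scalars
-/

namespace Vale.Agent.P269.G1.H598

open Finset.HasAntidiagonal (antidiagonal)
open Polynomial

variable {R A O : Type*} [CommRing R] [Algebra ℚ R] [CommRing A] [Algebra R A]
    [Ring O] [Algebra R O]

theorem psi_eq (S : Frob R A O) (n : ℕ) :
    S.psi n = ∑ i ∈ Finset.range n, S.C (S.E ^ i) * S.mu * S.C (S.E ^ (n - 1 - i)) := by
  rw [Frob.psi, antidiag_shift n (fun a b => S.C (S.E ^ a) * S.mu * S.C (S.E ^ b))]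

theorem phi_eq (S : Frob R A O) (n : ℕ) :
    S.phi n = ∑ i ∈ Finset.range n, S.E ^ i * (S.d (S.E ^ (n - 1 - i)) -
      (algebraMap ℚ R S.rho) • S.E ^ (n - 1 - i)) := by
  rw [Frob.phi, antidiag_shift n (fun a b => S.E ^ a * (S.d (S.E ^ b) -
      (algebraMap ℚ R S.rho) • S.E ^ b))]

theorem om_eq (S : Frob R A O) (n : ℕ) :
    S.om n = -((1 / 4 : ℚ) • S.str (S.mu * S.psi n)) - (1 / 24 : ℚ) • S.str (S.C (S.phi n)) := by
  rw [Frob.om, antidiag_shift n (fun a b =>
    -((1 / 4 : ℚ) • S.str (S.mu * S.C (S.E ^ a) * S.mu * S.C (S.E ^ b)))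
    - (1 / 24 : ℚ) • (S.str (S.C (S.E ^ a * S.d (S.E ^ b)))
        - S.rho • S.str (S.C (S.E ^ a * S.E ^ b))))]
  rw [psi_eq, phi_eq, Finset.mul_sum, map_sum, map_sum, map_sum, Finset.smul_sum, Finset.smul_sum,
    ← Finset.sum_neg_distrib, ← Finset.sum_sub_distrib]
  refine Finset.sum_congr rfl fun i _ => ?_
  have e1 : S.mu * (S.C (S.E ^ i) * S.mu * S.C (S.E ^ (n - 1 - i))) =
      S.mu * S.C (S.E ^ i) * S.mu * S.C (S.E ^ (n - 1 - i)) := by noncomm_ring
  have e2 : S.str (S.C (S.E ^ i * (S.d (S.E ^ (n - 1 - i)) -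
      (algebraMap ℚ R S.rho) • S.E ^ (n - 1 - i)))) =
      S.str (S.C (S.E ^ i * S.d (S.E ^ (n - 1 - i)))) -
        S.rho • S.str (S.C (S.E ^ i * S.E ^ (n - 1 - i))) := by
    rw [mul_sub, map_sub, map_sub, mul_smul_comm, map_smul, map_smul, Algebra.smul_def,
      Algebra.smul_def]
    simp
  rw [e1, e2]

theorem psi_add (S : Frob R A O) (n j : ℕ) :
    S.psi (n + j) = S.C (S.E ^ j) * S.psi n + S.psi j * S.C (S.E ^ n) := by
  rw [psi_eq, psi_eq, psi_eq, add_comm n j, Finset.sum_range_add, add_comm, Finset.mul_sum,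
    Finset.sum_mul]
  congr 1
  · refine Finset.sum_congr rfl fun i hi => ?_
    have hi' := Finset.mem_range.1 hi
    have e : j + n - 1 - (j + i) = n - 1 - i := by omega
    rw [e, pow_add, map_mul]
    noncomm_ring
  · refine Finset.sum_congr rfl fun i hi => ?_
    have hi' := Finset.mem_range.1 hi
    have e : j + n - 1 - i = (j - 1 - i) + n := by omega
    rw [e, pow_add, map_mul, mul_assoc (S.C (S.E ^ i) * S.mu)]

theorem phi_add (S : Frob R A O) (n j : ℕ) :
    S.phi (n + j) = S.E ^ j * S.phi n + ∑ i ∈ Finset.range j,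
      S.E ^ i * (S.d (S.E ^ (j - 1 - i) * S.E ^ n) -
      (algebraMap ℚ R S.rho) • (S.E ^ (j - 1 - i) * S.E ^ n)) := by
  rw [phi_eq, phi_eq, add_comm n j, Finset.sum_range_add, add_comm, Finset.mul_sum]
  congr 1
  · refine Finset.sum_congr rfl fun i hi => ?_
    have hi' := Finset.mem_range.1 hi
    have e : j + n - 1 - (j + i) = n - 1 - i := by omega
    rw [e, pow_add, mul_assoc]
  · refine Finset.sum_congr rfl fun i hi => ?_
    have hi' := Finset.mem_range.1 hi
    have e : j + n - 1 - i = (j - 1 - i) + n := by omega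
    rw [e, pow_add]

/-- **[P1]** -/
theorem om_poly (S : Frob R A O) (P : R[X]) (hP : aeval S.E P = 0)
    (hΛ : P.sum (fun n c => c • S.psi n) = 0) (hφ : P.sum (fun n c => c • S.phi n) = 0) (j : ℕ) :
    P.sum (fun n c => c * S.om (n + j)) = 0 := by
  rw [Polynomial.sum_def] at hΛ hφ ⊢
  have haev : ∑ n ∈ P.support, P.coeff n • S.E ^ n = 0 := by
    rw [← hP, aeval_def, eval₂_eq_sum, Polynomial.sum_def]
    exact Finset.sum_congr rfl fun n _ => by rw [Algebra.smul_def]
  have h1 : ∑ n ∈ P.support, P.coeff n • S.psi (n + j) = 0 := by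
    have : ∑ n ∈ P.support, P.coeff n • S.psi (n + j) =
        S.C (S.E ^ j) * (∑ n ∈ P.support, P.coeff n • S.psi n) +
          S.psi j * S.C (∑ n ∈ P.support, P.coeff n • S.E ^ n) := by
      rw [map_sum, Finset.mul_sum, Finset.mul_sum, ← Finset.sum_add_distrib]
      refine Finset.sum_congr rfl fun n _ => ?_
      rw [psi_add, smul_add, mul_smul_comm, map_smul, mul_smul_comm]
    rw [this, hΛ, haev]
    simp
  have h2 : ∑ n ∈ P.support, P.coeff n • S.phi (n + j) = 0 := by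
    have : ∑ n ∈ P.support, P.coeff n • S.phi (n + j) =
        S.E ^ j * (∑ n ∈ P.support, P.coeff n • S.phi n) +
          ∑ i ∈ Finset.range j,
      S.E ^ i * (S.d (S.E ^ (j - 1 - i) * (∑ n ∈ P.support, P.coeff n • S.E ^ n)) -
      (algebraMap ℚ R S.rho) • (S.E ^ (j - 1 - i) * (∑ n ∈ P.support, P.coeff n • S.E ^ n))) := by
      have e3 : ∀ i, S.E ^ i * (S.d (S.E ^ (j - 1 - i) * (∑ n ∈ P.support, P.coeff n • S.E ^ n)) -
        (algebraMap ℚ R S.rho) • (S.E ^ (j - 1 - i) * (∑ n ∈ P.support, P.coeff n • S.E ^ n))) =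
          ∑ n ∈ P.support, P.coeff n • (S.E ^ i * (S.d (S.E ^ (j - 1 - i) * S.E ^ n) -
            (algebraMap ℚ R S.rho) • (S.E ^ (j - 1 - i) * S.E ^ n))) := by
        intro i
        rw [Finset.mul_sum, map_sum, Finset.smul_sum, ← Finset.sum_sub_distrib, Finset.mul_sum]
        refine Finset.sum_congr rfl fun n _ => ?_
        rw [mul_smul_comm, map_smul, smul_comm (algebraMap ℚ R S.rho), ← smul_sub, mul_smul_comm]
      simp only [e3]
      rw [Finset.sum_comm, Finset.mul_sum, ← Finset.sum_add_distrib]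
      refine Finset.sum_congr rfl fun n _ => ?_
      rw [phi_add, smul_add, mul_smul_comm, Finset.smul_sum]
    rw [this, hφ, haev]
    simp
  have h3 : ∑ n ∈ P.support, P.coeff n * S.om (n + j) =
      -((1 / 4 : ℚ) • S.str (S.mu * ∑ n ∈ P.support, P.coeff n • S.psi (n + j))) -
        (1 / 24 : ℚ) • S.str (S.C (∑ n ∈ P.support, P.coeff n • S.phi (n + j))) := by
    rw [Finset.mul_sum, map_sum, map_sum, map_sum, Finset.smul_sum, Finset.smul_sum,
      ← Finset.sum_neg_distrib, ← Finset.sum_sub_distrib]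
    refine Finset.sum_congr rfl fun n _ => ?_
    rw [om_eq, mul_smul_comm, map_smul, map_smul, map_smul, mul_sub, mul_neg, smul_eq_mul,
      smul_eq_mul, mul_smul_comm, mul_smul_comm]
  rw [h3, h1, h2]
  simp

end Vale.Agent.P269.G1.H598
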